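import Mathlib

/-!
P110, ultraflat construction, packing: averages over colourings with a product weight.
-/

namespace Vale.Agent.P110.Ultraflat.Pack

open Finset

variable {P : ℕ} {α : Type} [Fintype α] (w : α → ℝ)

/-- The average over colourings of `P` positions under the product weight. -/
def avg (F : (Fin P → α) → ℝ) : ℝ := ∑ σ : Fin P → α, (∏ b, w (σ b)) * F σ

variable {w}

theorem avg_mono (hw : ∀ a, 0 ≤ w a) {F G : (Fin P → α) → ℝ} (h : ∀ σ, F σ ≤ G σ) :
    avg w F ≤ avg w G :=
  Finset.sum_le_sum fun σ _ => mul_le_mul_of_nonneg_left (h σ) (Finset.prod_nonneg fun _ _ => hw _)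

theorem avg_add (F G : (Fin P → α) → ℝ) : avg w (fun σ => F σ + G σ) = avg w F + avg w G := by
  simp only [avg, mul_add, Finset.sum_add_distrib]

theorem avg_sub (F G : (Fin P → α) → ℝ) : avg w (fun σ => F σ - G σ) = avg w F - avg w G := by
  simp only [avg, mul_sub, Finset.sum_sub_distrib]

theorem avg_mul (a : ℝ) (F : (Fin P → α) → ℝ) : avg w (fun σ => a * F σ) = a * avg w F := by
  simp only [avg, Finset.mul_sum]
  exact Finset.sum_congr rfl fun σ _ => by ring

theorem avg_sum {κ : Type} (s : Finset κ) (F : κ → (Fin P → α) → ℝ) :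
    avg w (fun σ => ∑ k ∈ s, F k σ) = ∑ k ∈ s, avg w (F k) := by
  simp only [avg, Finset.mul_sum]
  exact Finset.sum_comm

theorem avg_const (hsum : ∑ a, w a = 1) (a : ℝ) : avg w (fun _ : Fin P → α => a) = a := by
  rw [avg, ← Finset.sum_mul, ← Fintype.prod_sum (fun (_ : Fin P) x => w x)]
  simp [hsum]

theorem exists_ge_avg (hw : ∀ a, 0 ≤ w a) (hsum : ∑ a, w a = 1) (F : (Fin P → α) → ℝ) :
    ∃ σ, avg w F ≤ F σ := by
  have : Nonempty α := by
    by_contra h
    rw [not_nonempty_iff] at h
    simp at hsum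
  obtain ⟨σ, -, hσ⟩ := Finset.exists_max_image Finset.univ F Finset.univ_nonempty
  refine ⟨σ, (avg_mono hw fun τ => hσ τ (Finset.mem_univ τ)).trans ?_⟩
  rw [avg_const hsum]

/-- **Prescribed colours at distinct positions are independent.** -/
theorem avg_prescribed [DecidableEq α] (hsum : ∑ a, w a = 1) {κ : Type} [Fintype κ] (p : κ → Fin P)
    (hp : Function.Injective p) (t : κ → α) :
    avg w (fun σ => if ∀ k, σ (p k) = t k then (1 : ℝ) else 0) = ∏ k, w (t k) := by
  classical
  let h : Fin P → α → ℝ := fun b a => if ∀ k, p k = b → t k = a then w a else 0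
  have hfac : ∀ σ : Fin P → α, (∏ b, w (σ b)) * (if ∀ k, σ (p k) = t k then (1 : ℝ) else 0) =
      ∏ b, h b (σ b) := fun σ => by
    by_cases hs : ∀ k, σ (p k) = t k
    · rw [if_pos hs, mul_one]
      refine Finset.prod_congr rfl fun b _ => (if_pos ?_).symm
      intro k hk
      rw [← hk, hs]
    · rw [if_neg hs, mul_zero]
      obtain ⟨k, hk⟩ := not_forall.1 hs
      exact (Finset.prod_eq_zero (Finset.mem_univ (p k))
        (if_neg fun h => hk (h k rfl).symm)).symm
  rw [avg, Finset.sum_congr rfl fun σ _ => hfac σ, ← Fintype.prod_sum h]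
  have hb : ∀ b, b ∉ Finset.univ.image p → ∑ a, h b a = 1 := fun b hb => by
    refine (Finset.sum_congr rfl fun a _ => if_pos fun k hk => absurd ?_ hb).trans hsum
    exact Finset.mem_image.2 ⟨k, Finset.mem_univ _, hk⟩
  rw [← Finset.prod_subset (Finset.subset_univ (Finset.univ.image p)) fun b _ => hb b,
    Finset.prod_image fun a _ b _ e => hp e]
  refine Finset.prod_congr rfl fun k _ => ?_
  rw [Finset.sum_eq_single (t k)]
  · exact if_pos fun k' hk' => by rw [hp hk']
  · exact fun a _ ha => if_neg fun hh => ha (hh k rfl).symm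
  · exact fun hn => absurd (Finset.mem_univ _) hn

end Vale.Agent.P110.Ultraflat.Pack
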