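import Vale.Agent.P110.Ultraflat.Pack.Count
import Vale.Agent.P110.Ultraflat.Pack.Prob

/-!
P110, ultraflat construction, packing: a colouring of mirror pairs of blocks of residues for which almost the expected
number of residue vectors is good, after deletion with no residue used more often than expected.
-/

namespace Vale.Agent.P110.Ultraflat.Pack

open Finset

variable {d : ℕ} {ι : Type} [Fintype ι] [DecidableEq ι] (v : ι → Fin d → ℤ) (z : Fin d) (L P : ℕ)
  [NeZero L] [NeZero P]

theorem sum_le_of_mul_le {α : Type} [Fintype α] {f : α → ℕ} {Q c M : ℕ} (hQ : 0 < Q)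
    (h : ∀ a, f a * Q ≤ c) (hM : Fintype.card α ≤ M * Q) : ∑ a, f a ≤ M * c := by
  refine Nat.le_of_mul_le_mul_right ?_ hQ
  calc (∑ a, f a) * Q = ∑ a, f a * Q := Finset.sum_mul ..
    _ ≤ Fintype.card α * c := (Finset.sum_le_card_nsmul _ _ c fun a _ => h a).trans_eq (smul_eq_mul _ _)
    _ ≤ M * Q * c := Nat.mul_le_mul_right _ hM
    _ = _ := by ring

/-- The block of a residue. -/
def blk (x : ZMod (2 * P * L)) : ℕ := x.val / L

/-- The mirror pair of the block of a residue. -/
def pair (x : ZMod (2 * P * L)) : Fin P :=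
  Fin.ofNat P (if blk L P x < P then blk L P x else 2 * P - 1 - blk L P x)

/-- Whether a residue lies in the first half. -/
def sgn (x : ZMod (2 * P * L)) : Bool := decide (blk L P x < P)

/-- The colour of a residue: mirror blocks get opposite signs. -/
def col (σ : Fin P → ι × Bool) (x : ZMod (2 * P * L)) : ι × Bool :=
  if sgn L P x then σ (pair L P x) else ((σ (pair L P x)).1, !(σ (pair L P x)).2)

/-- A residue vector is good if every form puts it well inside a block of its colour. -/
def Good (σ : Fin P → ι × Bool) (g : Fin d → ZMod (2 * P * L)) : Prop :=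
  ∀ i, (lin (v i) g).val % L + (v i z).natAbs ≤ L ∧ col L P σ (lin (v i) g) = (i, true)

omit [Fintype ι] [DecidableEq ι] in
theorem blk_lt (x : ZMod (2 * P * L)) : blk L P x < 2 * P :=
  (Nat.div_lt_iff_lt_mul (Nat.pos_of_ne_zero (NeZero.ne L))).2 (ZMod.val_lt x)

omit [Fintype ι] [DecidableEq ι] [NeZero L] in
theorem col_eq_iff (σ : Fin P → ι × Bool) (x : ZMod (2 * P * L)) (i : ι) :
    col L P σ x = (i, true) ↔ σ (pair L P x) = (i, sgn L P x) := by
  rcases hs : σ (pair L P x) with ⟨j, s⟩
  cases h : sgn L P x <;> cases s <;> simp [col, h, hs]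

/-- The sum of the absolute values of the entries, plus one. -/
def size : ℕ := (∑ i, ∑ c, (v i c).natAbs) + 1

/-- The constant of the exceptional residue vectors. -/
def cst : ℕ := 4 * (Fintype.card ι + 1) ^ 2 * size v ^ 2

omit [DecidableEq ι] in
theorem natAbs_le_size (i : ι) (c : Fin d) : (v i c).natAbs ≤ size v :=
  ((Finset.single_le_sum (fun _ _ => Nat.zero_le _) (Finset.mem_univ c)).trans
    (Finset.single_le_sum (f := fun i => ∑ c, (v i c).natAbs) (fun _ _ => Nat.zero_le _)
      (Finset.mem_univ i))).trans (Nat.le_succ _)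

omit [DecidableEq ι] in
theorem minor_le (i j : ι) (b c : Fin d) :
    (v i c * v j b - v j c * v i b).natAbs ≤ 2 * size v ^ 2 := by
  refine (Int.natAbs_sub_le _ _).trans ?_
  rw [Int.natAbs_mul, Int.natAbs_mul, two_mul, sq]
  exact Nat.add_le_add (Nat.mul_le_mul (natAbs_le_size v i c) (natAbs_le_size v j b))
    (Nat.mul_le_mul (natAbs_le_size v j c) (natAbs_le_size v i b))

theorem card_pair_eq_le (p : Fin P) : #{x : ZMod (2 * P * L) | pair L P x = p} ≤ 2 * L := by
  calc _ ≤ #((({(p : ℕ), 2 * P - 1 - p} : Finset ℕ) ×ˢ Finset.range L)) := by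
        refine Finset.card_le_card_of_injOn (fun x => (blk L P x, x.val % L)) (fun x hx => ?_) ?_
        · simp only [Finset.coe_filter, Finset.mem_univ, true_and, Set.mem_ofPred_eq] at hx
          simp only [Finset.coe_product, Set.mem_prod, Finset.coe_range, Set.mem_Iio,
            Finset.coe_insert, Finset.coe_singleton, Set.mem_insert_iff, Set.mem_singleton_iff]
          refine ⟨?_, Nat.mod_lt _ (Nat.pos_of_ne_zero (NeZero.ne L))⟩
          have h := blk_lt L P x
          have e := congrArg Fin.val hx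
          rw [pair, Fin.val_ofNat] at e
          split at e
          · rw [Nat.mod_eq_of_lt (by assumption)] at e; exact .inl e
          · rw [Nat.mod_eq_of_lt (by omega)] at e; right; omega
        · intro x _ y _ e
          obtain ⟨e1, e2⟩ := Prod.mk.injEq .. ▸ e
          refine ZMod.val_injective _ ?_
          rw [← Nat.div_add_mod x.val L, ← Nat.div_add_mod y.val L]
          simp only [blk] at e1
          rw [e1, e2]
    _ ≤ 2 * L := by
        rw [Finset.card_product, Finset.card_range]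
        exact Nat.mul_le_mul_right _ Finset.card_le_two

theorem card_offset_le (m : ℕ) : #{x : ZMod (2 * P * L) | L < x.val % L + m} ≤ 2 * P * m := by
  calc _ ≤ #(Finset.range (2 * P) ×ˢ Finset.range m) := by
        refine Finset.card_le_card_of_injOn (fun x => (blk L P x, L - 1 - x.val % L)) (fun x hx => ?_) ?_
        · simp only [Finset.coe_filter, Finset.mem_univ, true_and, Set.mem_ofPred_eq] at hx
          simp only [Finset.coe_product, Set.mem_prod, Finset.coe_range, Set.mem_Iio]
          have := Nat.mod_lt x.val (Nat.pos_of_ne_zero (NeZero.ne L))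
          exact ⟨blk_lt L P x, by omega⟩
        · intro x _ y _ e
          obtain ⟨e1, e2⟩ := Prod.mk.injEq .. ▸ e
          refine ZMod.val_injective _ ?_
          have := Nat.mod_lt x.val (Nat.pos_of_ne_zero (NeZero.ne L))
          have := Nat.mod_lt y.val (Nat.pos_of_ne_zero (NeZero.ne L))
          rw [← Nat.div_add_mod x.val L, ← Nat.div_add_mod y.val L]
          simp only [blk] at e1
          rw [e1, show x.val % L = y.val % L by omega]
    _ = _ := by rw [Finset.card_product, Finset.card_range, Finset.card_range]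

/-- Exceptional residue vectors. -/
def Bad (g : Fin d → ZMod (2 * P * L)) : Prop :=
  (∃ i, L < (lin (v i) g).val % L + (v i z).natAbs) ∨
    ∃ i j, i ≠ j ∧ pair L P (lin (v i) g) = pair L P (lin (v j) g)

variable {v z}

section Counts

variable (hz : ∀ i, v i z ≠ 0) (hv : ∀ i, IsUnit (v i z : ZMod (2 * P * L)))
  (hind : ∀ i j, i ≠ j → ∃ b, v i z * v j b - v j z * v i b ≠ 0)

include hv hind

omit [DecidableEq ι] in
theorem card_collide_le (i j : ι) (hij : i ≠ j) (r : ZMod (2 * P * L)) (p : Fin P) :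
    #{g : Fin d → ZMod (2 * P * L) | lin (v i) g = r ∧ pair L P (lin (v j) g) = p} * (2 * P * L) ≤
      4 * size v ^ 2 * L * (2 * P * L) ^ (d - 1) := by
  classical
  obtain ⟨b, hb⟩ := hind i j hij
  have hd : 2 ≤ d := by
    by_contra h
    exact hb (by rw [show b = z from Fin.ext (by omega), sub_eq_zero, mul_comm])
  rw [show (2 * P * L) ^ (d - 1) = (2 * P * L) ^ (d - 2) * (2 * P * L) by rw [← pow_succ]; congr 1; omega,
    ← mul_assoc (4 * size v ^ 2 * L)]
  refine Nat.mul_le_mul_right _ (le_trans (le_trans (Finset.card_le_card fun g hg => ?_)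
    (card_lin2_le (v i) z (hv i) (v j) b hb r ({x : ZMod (2 * P * L) | pair L P x = p} : Finset _))) ?_)
  · simp only [Finset.mem_filter, Finset.mem_univ, true_and] at hg ⊢
    exact hg
  refine Nat.mul_le_mul_right _ ((Nat.mul_le_mul (minor_le v i j b z) (card_pair_eq_le L P p)).trans ?_)
  exact le_of_eq (by ring)

include hz

theorem card_bad_le [DecidablePred (Bad v z L P)] :
    #{g | Bad v z L P g} ≤ cst v * (P + L) * (2 * P * L) ^ (d - 1) := by
  classical
  set J := Fintype.card ι
  set S := size v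
  have hQ : 0 < 2 * P * L := Nat.pos_of_ne_zero (NeZero.ne _)
  let A := (Finset.univ : Finset ι).biUnion fun i =>
    ({g : Fin d → ZMod (2 * P * L) | L < (lin (v i) g).val % L + (v i z).natAbs} : Finset _)
  let B := (Finset.univ : Finset (ι × ι)).biUnion fun ij =>
    ({g : Fin d → ZMod (2 * P * L) | ij.1 ≠ ij.2 ∧ pair L P (lin (v ij.1) g) = pair L P (lin (v ij.2) g)} :
      Finset _)
  have hsub : ({g | Bad v z L P g} : Finset _) ⊆ A ∪ B := fun g hg => by
    simp only [Finset.mem_filter, Finset.mem_univ, true_and] at hg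
    rcases hg with ⟨i, hi⟩ | ⟨i, j, hij⟩
    · exact Finset.mem_union_left _ (Finset.mem_biUnion.2 ⟨i, Finset.mem_univ _, by simpa using hi⟩)
    · exact Finset.mem_union_right _ (Finset.mem_biUnion.2 ⟨(i, j), Finset.mem_univ _, by simpa using hij⟩)
  have hA : #A ≤ J * (S * (2 * P * S) * (2 * P * L) ^ (d - 1)) := by
    refine Finset.card_biUnion_le.trans ?_
    refine (Finset.sum_le_card_nsmul _ _ _ fun i _ => ?_).trans (le_of_eq (smul_eq_mul _ _))
    have hm := natAbs_le_size v i z
    refine le_trans (le_trans (Finset.card_le_card fun g hg => ?_)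
      (card_lin_le (v i) z (hz i) ({x : ZMod (2 * P * L) | L < x.val % L + (v i z).natAbs} : Finset _))) ?_
    · simp only [Finset.mem_filter, Finset.mem_univ, true_and] at hg ⊢
      exact hg
    · exact Nat.mul_le_mul_right _
        (Nat.mul_le_mul hm ((card_offset_le L P _).trans (Nat.mul_le_mul_left _ hm)))
  have hB : #B ≤ J * J * (4 * S ^ 2 * L * (2 * P * L) ^ (d - 1)) := by
    refine Finset.card_biUnion_le.trans ?_
    refine (Finset.sum_le_card_nsmul _ _ (4 * S ^ 2 * L * (2 * P * L) ^ (d - 1)) fun ij _ => ?_).trans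
      (le_of_eq (by simp [J]))
    by_cases hij : ij.1 = ij.2
    · simp [hij]
    rw [Finset.card_eq_sum_card_fiberwise (f := fun g => lin (v ij.1) g) (t := Finset.univ)
      fun _ _ => Finset.mem_univ _]
    refine (sum_le_of_mul_le (M := 1) hQ (fun r => le_trans (Nat.mul_le_mul_right _
      (Finset.card_le_card fun g hg => ?_)) (card_collide_le L P hv hind ij.1 ij.2 hij r (pair L P r)))
      (by simp)).trans (le_of_eq (one_mul _))
    simp only [Finset.mem_filter, Finset.mem_univ, true_and] at hg ⊢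
    exact ⟨hg.2, by rw [← hg.1.2, hg.2]⟩
  refine (Finset.card_le_card hsub).trans ((Finset.card_union_le _ _).trans ((Nat.add_le_add hA hB).trans ?_))
  rw [cst]
  have hJ : J * (S * (2 * P * S)) + J * J * (4 * S ^ 2 * L) ≤ 4 * (J + 1) ^ 2 * S ^ 2 * (P + L) := by
    nlinarith [sq_nonneg J, Nat.zero_le (J * S * S * P), Nat.zero_le (J * J * S * S * P),
      Nat.zero_le (J * S * S * L), Nat.zero_le (S * S * L), Nat.zero_le (S * S * P)]
  calc _ = (J * (S * (2 * P * S)) + J * J * (4 * S ^ 2 * L)) * (2 * P * L) ^ (d - 1) := by ring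
    _ ≤ _ := Nat.mul_le_mul_right _ hJ

/-- Pairs of vectors on a common fibre with a collision. -/
theorem card_badPair_le (m : ι)
    [DecidablePred fun q : (Fin d → ZMod (2 * P * L)) × (Fin d → ZMod (2 * P * L)) =>
      lin (v m) q.1 = lin (v m) q.2 ∧ (Bad v z L P q.1 ∨ Bad v z L P q.2 ∨
        ∃ j k, j ≠ m ∧ k ≠ m ∧ pair L P (lin (v j) q.1) = pair L P (lin (v k) q.2))] :
    #{q : (Fin d → ZMod (2 * P * L)) × (Fin d → ZMod (2 * P * L)) |
      lin (v m) q.1 = lin (v m) q.2 ∧ (Bad v z L P q.1 ∨ Bad v z L P q.2 ∨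
        ∃ j k, j ≠ m ∧ k ≠ m ∧ pair L P (lin (v j) q.1) = pair L P (lin (v k) q.2))} ≤
      3 * cst v * (P + L) * (2 * P * L) ^ (2 * (d - 1)) := by
  classical
  set Q := 2 * P * L
  have hQ : 0 < Q := Nat.pos_of_ne_zero (NeZero.ne _)
  have hd1 : 0 < d := Fin.pos z
  let B : Finset (Fin d → ZMod (2 * P * L)) := {g | Bad v z L P g}
  let U : Finset ((Fin d → ZMod (2 * P * L)) × (Fin d → ZMod (2 * P * L))) :=
    {q | lin (v m) q.1 = lin (v m) q.2}
  let C1 := U.filter fun q => q.1 ∈ B
  let C2 := U.filter fun q => q.2 ∈ B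
  let C3 := (Finset.univ : Finset (ι × ι)).biUnion fun jk =>
    U.filter fun q => jk.2 ≠ m ∧ pair L P (lin (v jk.1) q.1) = pair L P (lin (v jk.2) q.2)
  have hfib : ∀ r, #{g : Fin d → ZMod (2 * P * L) | lin (v m) g = r} ≤ Q ^ (d - 1) :=
    card_fibre_le (v m) z (hv m)
  have hB : #B ≤ cst v * (P + L) * Q ^ (d - 1) := card_bad_le L P hz hv hind
  have h1 : #C1 ≤ Q ^ (d - 1) * #B := by
    refine (Finset.card_le_mul_card_image (f := fun q => q.1) C1 (Q ^ (d - 1)) fun g _ => ?_).trans
      (Nat.mul_le_mul_left _ (Finset.card_le_card ?_))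
    · refine le_trans (Finset.card_le_card_of_injOn (fun q => q.2) (fun q hq => ?_) ?_) (hfib (lin (v m) g))
      · simp only [C1, U, Finset.coe_filter, Finset.mem_filter, Finset.mem_univ, true_and,
          Set.mem_ofPred_eq] at hq ⊢
        rw [← hq.1.1, hq.2]
      · intro q hq q' hq' e
        simp only [Finset.coe_filter, Set.mem_ofPred_eq] at hq hq'
        exact Prod.ext (hq.2.trans hq'.2.symm) e
    · intro g hg
      simp only [C1, Finset.mem_image, Finset.mem_filter] at hg
      obtain ⟨q, hq, rfl⟩ := hg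
      exact hq.2
  have h2 : #C2 ≤ Q ^ (d - 1) * #B := by
    refine (Finset.card_le_mul_card_image (f := fun q => q.2) C2 (Q ^ (d - 1)) fun g _ => ?_).trans
      (Nat.mul_le_mul_left _ (Finset.card_le_card ?_))
    · refine le_trans (Finset.card_le_card_of_injOn (fun q => q.1) (fun q hq => ?_) ?_) (hfib (lin (v m) g))
      · simp only [C2, U, Finset.coe_filter, Finset.mem_filter, Finset.mem_univ, true_and,
          Set.mem_ofPred_eq] at hq ⊢
        rw [hq.1.1, hq.2]
      · intro q hq q' hq' e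
        simp only [Finset.coe_filter, Set.mem_ofPred_eq] at hq hq'
        exact Prod.ext e (hq.2.trans hq'.2.symm)
    · intro g hg
      simp only [C2, Finset.mem_image, Finset.mem_filter] at hg
      obtain ⟨q, hq, rfl⟩ := hg
      exact hq.2
  have h3 : #C3 ≤ Fintype.card (ι × ι) * (4 * size v ^ 2 * L * Q ^ (2 * (d - 1))) := by
    refine Finset.card_biUnion_le.trans
      ((Finset.sum_le_card_nsmul _ _ _ fun jk _ => ?_).trans (le_of_eq (smul_eq_mul _ _)))
    by_cases hk : jk.2 = m
    · simp [hk]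
    rw [Finset.card_eq_sum_card_fiberwise (f := fun q => q.1) (t := Finset.univ)
      fun _ _ => Finset.mem_univ _]
    refine (sum_le_of_mul_le (M := Q ^ (d - 1)) hQ (fun g => le_trans (Nat.mul_le_mul_right _
      (Finset.card_le_card_of_injOn (fun q => q.2) (fun q hq => ?_) ?_))
      (card_collide_le L P hv hind m jk.2 (Ne.symm hk) (lin (v m) g) (pair L P (lin (v jk.1) g)))) ?_).trans ?_
    · simp only [U, Finset.coe_filter, Finset.mem_filter, Finset.mem_univ, true_and,
        Set.mem_ofPred_eq] at hq ⊢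
      exact ⟨by rw [← hq.1.1, hq.2], by rw [← hq.1.2.2, hq.2]⟩
    · intro q hq q' hq' e
      simp only [Finset.coe_filter, Set.mem_ofPred_eq] at hq hq'
      exact Prod.ext (hq.2.trans hq'.2.symm) e
    · exact le_of_eq (by rw [Fintype.card_fun, Fintype.card_fin, ZMod.card, ← pow_succ]; congr 1; omega)
    · exact le_of_eq (by rw [show 2 * (d - 1) = d - 1 + (d - 1) from two_mul _, pow_add]; ring)
  refine le_trans (Finset.card_le_card (t := C1 ∪ C2 ∪ C3) fun q hq => ?_) ?_
  · simp only [Finset.mem_filter, Finset.mem_univ, true_and] at hq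
    rcases hq.2 with h | h | ⟨j, k, -, hk, h⟩
    · simp [C1, U, B, hq.1, h]
    · simp [C2, U, B, hq.1, h]
    · refine Finset.mem_union_right _ (Finset.mem_biUnion.2 ⟨(j, k), Finset.mem_univ _, ?_⟩)
      simp [U, hq.1, hk, h]
  have hc : Fintype.card (ι × ι) * (4 * size v ^ 2 * L) ≤ cst v * (P + L) := by
    rw [cst, Fintype.card_prod]
    calc _ ≤ (Fintype.card ι + 1) * (Fintype.card ι + 1) * (4 * size v ^ 2 * (P + L)) :=
          Nat.mul_le_mul (Nat.mul_le_mul (Nat.le_succ _) (Nat.le_succ _))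
            (Nat.mul_le_mul_left _ (Nat.le_add_left _ _))
      _ = _ := by ring
  calc _ ≤ #C1 + #C2 + #C3 :=
        (Finset.card_union_le _ _).trans (Nat.add_le_add_right (Finset.card_union_le _ _) _)
    _ ≤ Q ^ (d - 1) * (cst v * (P + L) * Q ^ (d - 1)) +
        Q ^ (d - 1) * (cst v * (P + L) * Q ^ (d - 1)) +
        cst v * (P + L) * Q ^ (2 * (d - 1)) := by
        refine Nat.add_le_add (Nat.add_le_add (h1.trans (Nat.mul_le_mul_left _ hB))
          (h2.trans (Nat.mul_le_mul_left _ hB))) (h3.trans ?_)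
        calc _ = Fintype.card (ι × ι) * (4 * size v ^ 2 * L) * Q ^ (2 * (d - 1)) := by ring
          _ ≤ _ := Nat.mul_le_mul_right _ hc
    _ = _ := by rw [show 2 * (d - 1) = d - 1 + (d - 1) from two_mul _, pow_add]; ring

end Counts

section Moments

variable {f : ι → ℝ}

/-- The weight of a signed colour. -/
def wgt (f : ι → ℝ) (a : ι × Bool) : ℝ := f a.1

omit [DecidableEq ι] in
theorem wgt_sum (hsum : 2 * ∑ i, f i = 1) : ∑ a, wgt f a = 1 := by
  rw [Fintype.sum_prod_type, ← hsum, Finset.mul_sum]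
  simp [wgt, two_mul]

omit [NeZero L] in
theorem avg_col (hsum : 2 * ∑ i, f i = 1) (i : ι) (r : ZMod (2 * P * L)) :
    avg (wgt f) (fun σ => if col L P σ r = (i, true) then (1 : ℝ) else 0) = f i := by
  rw [show (fun σ : Fin P → ι × Bool => if col L P σ r = (i, true) then (1 : ℝ) else 0) = fun σ =>
      if ∀ _ : Unit, σ (pair L P r) = (i, sgn L P r) then (1 : ℝ) else 0 from
    funext fun σ => if_congr ((col_eq_iff L P σ r i).trans ⟨fun h _ => h, fun h => h ()⟩) rfl rfl,
    avg_prescribed (wgt_sum hsum) (fun _ : Unit => pair L P r) (fun a b _ => Subsingleton.elim a b)]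
  simp [wgt]

open Classical in
theorem avg_good (hsum : 2 * ∑ i, f i = 1) {g : Fin d → ZMod (2 * P * L)} (hg : ¬ Bad v z L P g) :
    avg (wgt f) (fun σ => if Good v z L P σ g then (1 : ℝ) else 0) = ∏ i, f i := by
  rw [Bad, not_or, not_exists, not_exists] at hg
  rw [show (fun σ : Fin P → ι × Bool => if Good v z L P σ g then (1 : ℝ) else 0) = fun σ =>
      if ∀ i, σ (pair L P (lin (v i) g)) = (i, sgn L P (lin (v i) g)) then (1 : ℝ) else 0 from
    funext fun σ => if_congr ⟨fun h i => (col_eq_iff L P σ _ i).1 (h i).2,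
      fun h i => ⟨not_lt.1 (hg.1 i), (col_eq_iff L P σ _ i).2 (h i)⟩⟩ rfl rfl,
    avg_prescribed (wgt_sum hsum) (fun i => pair L P (lin (v i) g))
      fun i j e => by_contra fun h => hg.2 i ⟨j, h, e⟩]
  rfl

open Classical in
theorem avg_good_pair (hsum : 2 * ∑ i, f i = 1) (hf : ∀ i, 0 < f i) (m : ι)
    {g g' : Fin d → ZMod (2 * P * L)} (hm : lin (v m) g = lin (v m) g') (h1 : ¬ Bad v z L P g)
    (h2 : ¬ Bad v z L P g')
    (h3 : ¬ ∃ j k, j ≠ m ∧ k ≠ m ∧ pair L P (lin (v j) g) = pair L P (lin (v k) g')) :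
    avg (wgt f) (fun σ => if Good v z L P σ g ∧ Good v z L P σ g' then (1 : ℝ) else 0) ≤
      (∏ i, f i) ^ 2 / f m := by
  let x : ι ⊕ {i // i ≠ m} → ZMod (2 * P * L) :=
    Sum.elim (fun i => lin (v i) g) fun i => lin (v i) g'
  let c : ι ⊕ {i // i ≠ m} → ι := Sum.elim id Subtype.val
  have hinj : Function.Injective fun k => pair L P (x k) := by
    rintro (i | i) (j | j) e <;> simp only [x, Sum.elim_inl, Sum.elim_inr] at e
    · exact congrArg _ (by_contra fun h => h1 (.inr ⟨i, j, h, e⟩))
    · exfalso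
      by_cases hi : i = m
      · subst hi
        rw [hm] at e
        exact h2 (.inr ⟨i, j, j.2.symm, e⟩)
      · exact h3 ⟨i, j, hi, j.2, e⟩
    · exfalso
      by_cases hj : j = m
      · subst hj
        rw [hm] at e
        exact h2 (.inr ⟨i, j, i.2, e⟩)
      · exact h3 ⟨j, i, hj, i.2, e.symm⟩
    · exact congrArg _ (Subtype.ext (by_contra fun h => h2 (.inr ⟨i, j, h, e⟩)))
  refine (avg_mono (w := wgt f) (fun a => (hf a.1).le)
    (G := fun σ => if ∀ k, σ (pair L P (x k)) = (c k, sgn L P (x k)) then (1 : ℝ) else 0)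
    fun σ => ?_).trans (le_of_eq ?_)
  · by_cases h : Good v z L P σ g ∧ Good v z L P σ g'
    · rw [if_pos h, if_pos]
      rintro (i | i)
      · exact (col_eq_iff L P σ _ i).1 (h.1 i).2
      · exact (col_eq_iff L P σ _ i).1 (h.2 i).2
    · rw [if_neg h]
      split_ifs <;> norm_num
  · rw [avg_prescribed (wgt_sum hsum) _ hinj, Fintype.prod_sum_type]
    simp only [wgt, c, Sum.elim_inl, Sum.elim_inr, id]
    rw [← Finset.prod_subtype (Finset.univ.erase m) (fun i => by simp) f,
      eq_div_iff (hf m).ne', mul_assoc, Finset.prod_erase_mul _ _ (Finset.mem_univ m), sq]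

end Moments

end Vale.Agent.P110.Ultraflat.Pack
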