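import Vale.Agent.P110.Ultraflat.Defs
import Vale.Agent.P110.Ultraflat.Pack.Colour

/-!
P110, ultraflat construction, packing: residue vectors of a good colouring lift to disjoint cells.
-/

namespace Vale.Agent.P110.Ultraflat.Pack

open Finset
open Vale.Agent.P110.Ultra

variable {d L P : ℕ} [NeZero L] [NeZero P]

theorem col_add {ι : Type} (σ : Fin P → ι × Bool) (x : ZMod (2 * P * L)) (s : ℕ)
    (h : x.val % L + s < L) : col L P σ (x + (s : ZMod (2 * P * L))) = col L P σ x := by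
  have hL : 0 < L := Nat.pos_of_ne_zero (NeZero.ne L)
  have hb : (x.val + s) / L = x.val / L :=
    Nat.div_eq_of_lt_le (by rw [mul_comm]; exact (Nat.mul_div_le _ _).trans (Nat.le_add_right _ _))
      (by rw [add_mul, one_mul]; have := Nat.div_add_mod' x.val L; omega)
  have hlt : x.val + s < 2 * P * L := (Nat.div_lt_iff_lt_mul hL).1 (hb.trans_lt (blk_lt L P x))
  have hv : (x + (s : ZMod (2 * P * L))).val = x.val + s := by
    conv_lhs => rw [← ZMod.natCast_zmod_val x, ← Nat.cast_add, ZMod.val_natCast]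
    exact Nat.mod_eq_of_lt hlt
  have hb' : blk L P (x + (s : ZMod (2 * P * L))) = blk L P x := by rw [blk, hv, hb, blk]
  simp only [col, sgn, pair, hb']
  exact if_congr Iff.rfl rfl rfl

theorem blk_mirror (x : ZMod (2 * P * L)) : blk L P (-1 - x) = 2 * P - 1 - blk L P x := by
  have hL : 0 < L := Nat.pos_of_ne_zero (NeZero.ne L)
  have hx := ZMod.val_lt x
  have hv : (-1 - x).val = 2 * P * L - 1 - x.val := by
    rw [show -1 - x = ((2 * P * L - 1 - x.val : ℕ) : ZMod (2 * P * L)) by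
      rw [Nat.cast_sub (by omega), Nat.cast_sub (by omega), ZMod.natCast_self, Nat.cast_one, zero_sub,
        ZMod.natCast_zmod_val], ZMod.val_natCast, Nat.mod_eq_of_lt (by omega)]
  rw [blk, hv, blk]
  have h := blk_lt L P x
  have h1 := Nat.div_add_mod' x.val L
  have h2 := Nat.mod_lt x.val hL
  refine Nat.div_eq_of_lt_le ?_ ?_
  · rw [Nat.sub_mul, Nat.sub_mul, one_mul]
    omega
  · rw [add_mul, one_mul, Nat.sub_mul, Nat.sub_mul, one_mul]
    simp only [blk] at h
    have := Nat.mul_le_mul_right L (show x.val / L + 1 ≤ 2 * P by omega)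
    rw [add_mul, one_mul] at this
    omega

theorem col_mirror {ι : Type} (σ : Fin P → ι × Bool) (x : ZMod (2 * P * L)) :
    col L P σ (-1 - x) = ((col L P σ x).1, !(col L P σ x).2) := by
  have hb := blk_mirror x
  have hlt := blk_lt L P x
  have hp : pair L P (-1 - x) = pair L P x := by
    simp only [pair, hb]
    congr 1
    split_ifs <;> omega
  have hs : sgn L P (-1 - x) = !sgn L P x := by
    simp only [sgn, hb]
    by_cases h : blk L P x < P <;> simp [h] <;> omega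
  rcases h : sgn L P x <;> simp [col, hp, hs, h]

/-- **Cells.** The residue vectors of a good colouring, each used `rep` times, lift to epochs with
disjoint cells. -/
theorem exists_cells (S : Finset (Vec d)) (hS : ∀ m ∈ S, 0 < m 0) (σ : Fin P → {m // m ∈ S} × Bool)
    (G : Finset (Fin (d + 1) → ZMod (2 * P * L)))
    (hgood : ∀ g ∈ G, Good (fun m : {m // m ∈ S} => (m : Vec d)) 0 L P σ g) (n : Vec d → ℕ)
    (hn : ∀ m ∈ S, 0 < n m ∧ Nat.Coprime (n m) (2 * P * L))
    (hpw : (S : Set (Vec d)).Pairwise fun m m' => Nat.Coprime (n m) (n m')) (rep : ℕ)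
    (hrep : ∀ (m : {m // m ∈ S}) (ρ : ZMod (2 * P * L)),
      #{g ∈ G | lin (m : Vec d) g = ρ} * rep * ((m : Vec d) 0).toNat ≤ n m) :
    ∃ g : ℕ → Vec d, CellsDisjoint S n (2 * P * L) (#G * rep) g := by
  classical
  have hQ : 0 < (2 * P * L) := Nat.pos_of_ne_zero (NeZero.ne _)
  -- the rank of a residue vector in its fibre
  let idx : {m // m ∈ S} → {x // x ∈ G} → ℕ := fun m x =>
    ((({g ∈ G | lin (m : Vec d) g = lin (m : Vec d) x.1} : Finset _)).equivFin
      ⟨x.1, Finset.mem_filter.2 ⟨x.2, rfl⟩⟩ : ℕ)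
  have hidx : ∀ (m : {m // m ∈ S}) (x : {x // x ∈ G}),
      idx m x < #{g ∈ G | lin (m : Vec d) g = lin (m : Vec d) x.1} := fun m x => Fin.isLt _
  have hinj : ∀ (m : {m // m ∈ S}) (x y : {x // x ∈ G}),
      lin (m : Vec d) x.1 = lin (m : Vec d) y.1 → idx m x = idx m y → x = y := by
    rintro m ⟨x, hx⟩ ⟨y, hy⟩ e h
    have key : ∀ (A B : Finset (Fin (d + 1) → ZMod (2 * P * L))) (ha : x ∈ A) (hb : y ∈ B), A = B →
        (A.equivFin ⟨x, ha⟩ : ℕ) = B.equivFin ⟨y, hb⟩ → x = y := by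
      rintro A B ha hb rfl h'
      exact Subtype.ext_iff.1 (A.equivFin.injective (Fin.ext h'))
    exact Subtype.ext (key _ _ _ _ (by simp only [e]) h)
  -- the items
  have hit : ∀ r < #G * rep, ∃ (x : {x // x ∈ G}) (k : ℕ) (h : Vec d), k < rep ∧
      r = (G.equivFin ⟨x.1, x.2⟩ : ℕ) * rep + k ∧ (∀ c, (h c : ZMod (2 * P * L)) = x.1 c) ∧
      ∀ m : {m // m ∈ S}, ∀ c, (h c : ℤ) ≡ (if c = 0 then ((idx m x * rep + k : ℕ) : ℤ) else 0)
        [ZMOD (n m : ℤ)] := by
    intro r hr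
    have hrep0 : 0 < rep := Nat.pos_of_mul_pos_left ((Nat.zero_le _).trans_lt hr)
    let y := G.equivFin.symm ⟨r / rep, (Nat.div_lt_iff_lt_mul hrep0).2 hr⟩
    have hcr : ∀ c : Fin (d + 1), ∃ h : ℕ, (h : ZMod (2 * P * L)) = y.1 c ∧ ∀ m : {m // m ∈ S},
        h ≡ (if c = 0 then idx m ⟨y.1, y.2⟩ * rep + r % rep else 0) [MOD n m] := by
      intro c
      obtain ⟨h, hh⟩ := Nat.chineseRemainderOfFinset
        (fun o : Option {m // m ∈ S} => o.elim (y.1 c).val
          fun m => if c = 0 then idx m ⟨y.1, y.2⟩ * rep + r % rep else 0)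
        (fun o => o.elim (2 * P * L) fun m => n m) Finset.univ
        (by rintro (_ | m) - <;> simp only [Option.elim]
            exacts [hQ.ne', (hn m m.2).1.ne'])
        (by rintro (_ | m) - (_ | m') - hne <;> simp only [Function.onFun, Option.elim]
            exacts [absurd rfl hne, (hn m' m'.2).2.symm, (hn m m.2).2,
              hpw m.2 m'.2 fun e => hne (congrArg some (Subtype.ext e))])
      refine ⟨h, ?_, fun m => hh (some m) (Finset.mem_univ _)⟩
      rw [(ZMod.natCast_eq_natCast_iff _ _ _).2 (show h ≡ (y.1 c).val [MOD 2 * P * L] from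
        hh none (Finset.mem_univ _)), ZMod.natCast_zmod_val]
    choose h h1 h2 using hcr
    refine ⟨⟨y.1, y.2⟩, r % rep, fun c => (h c : ℤ), Nat.mod_lt _ hrep0, ?_,
      fun c => by rw [Int.cast_natCast]; exact h1 c, fun m c => ?_⟩
    · simp only [y, Subtype.coe_eta, Equiv.apply_symm_apply]
      rw [mul_comm, Nat.div_add_mod]
    · have := Int.natCast_modEq_iff.2 (h2 c m)
      split_ifs at this ⊢ <;> simpa using this
  choose x k h hk hr h1 h2 using hit
  refine ⟨fun r => if hr : r < #G * rep then h r hr else 0, ?_⟩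
  intro r hr0 r' hr0' m hm m' hm' i hi i' hi' s hs s' hs'
  simp only [dif_pos hr0, dif_pos hr0']
  have hcast : ∀ (r : ℕ) (hr : r < #G * rep) (m : {m // m ∈ S}) (i s : ℕ),
      (((i : ℤ) * n m * ((2 * P * L : ℕ) : ℤ) + dotZ (m : Vec d) (h r hr) + s : ℤ) : ZMod (2 * P * L)) =
        lin (m : Vec d) (x r hr).1 + (s : ZMod (2 * P * L)) := by
    intro r hr m i s
    rw [Int.cast_add, Int.cast_add, Int.cast_mul, Int.cast_natCast (2 * P * L), ZMod.natCast_self, mul_zero,
      zero_add, Int.cast_natCast]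
    simp [dotZ, lin, h1]
  have hcol : ∀ (r : ℕ) (hr : r < #G * rep) (m : {m // m ∈ S}) (s : ℕ), s < ((m : Vec d) 0).toNat →
      col L P σ (lin (m : Vec d) (x r hr).1 + (s : ZMod (2 * P * L))) = (m, true) := by
    intro r hr m s hs
    have hg := hgood _ (x r hr).2 m
    have h0 := hS m m.2
    have h1' : (lin (m : Vec d) (x r hr).1).val % L + ((m : Vec d) 0).natAbs ≤ L := hg.1
    rw [col_add σ _ s (by omega)]
    exact hg.2
  have hdvd : ∀ {a b : ℤ}, a ≡ b [ZMOD (((2 * P * L) * qOf S n : ℕ) : ℤ)] → (a : ZMod (2 * P * L)) = (b : ZMod (2 * P * L)) := by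
    intro a b e
    exact (ZMod.intCast_eq_intCast_iff _ _ _).2 (e.of_dvd (by push_cast; exact dvd_mul_right _ _))
  refine ⟨fun e => ?_, fun e => ?_⟩
  · have eQ := hdvd e
    rw [hcast r hr0 ⟨m, hm⟩, hcast r' hr0' ⟨m', hm'⟩] at eQ
    have ec := hcol r hr0 ⟨m, hm⟩ s hs
    rw [eQ, hcol r' hr0' ⟨m', hm'⟩ s' hs'] at ec
    obtain rfl : m' = m := congrArg (fun p => (p.1 : Vec d)) ec
    have hmod : ∀ (r : ℕ) (hr : r < #G * rep) (i s : ℕ),
        (i : ℤ) * n m' * ((2 * P * L : ℕ) : ℤ) + dotZ m' (h r hr) + s ≡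
          (((idx ⟨m', hm'⟩ (x r hr) * rep + k r hr) * (m' 0).toNat + s : ℕ) : ℤ) [ZMOD (n m' : ℤ)] := by
      intro r hr i s
      rw [← ZMod.intCast_eq_intCast_iff]
      have hc : ∀ c, ((h r hr c : ℤ) : ZMod (n m')) =
          if c = 0 then ((idx ⟨m', hm'⟩ (x r hr) * rep + k r hr : ℕ) : ZMod (n m')) else 0 := fun c => by
        rw [(ZMod.intCast_eq_intCast_iff _ _ _).2 (h2 r hr ⟨m', hm'⟩ c)]
        split_ifs <;> simp
      simp only [dotZ, Int.cast_add, Int.cast_mul, Int.cast_natCast, Int.cast_sum, hc, mul_ite, mul_zero,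
        Finset.sum_ite_eq', Finset.mem_univ, if_true, ZMod.natCast_self, zero_mul, mul_zero, zero_add]
      rw [show ((m' 0 : ℤ) : ZMod (n m')) = (((m' 0).toNat : ℕ) : ZMod (n m')) by
        rw [← Int.cast_natCast, Int.toNat_of_nonneg (hS m' hm').le]]
      push_cast
      ring
    have hbound : ∀ (r : ℕ) (hr : r < #G * rep) (s : ℕ), s < (m' 0).toNat →
        (idx ⟨m', hm'⟩ (x r hr) * rep + k r hr) * (m' 0).toNat + s < n m' := by
      intro r hr s hs
      calc _ < (idx ⟨m', hm'⟩ (x r hr) * rep + k r hr + 1) * (m' 0).toNat := by rw [add_mul _ 1, one_mul]; omega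
        _ ≤ (idx ⟨m', hm'⟩ (x r hr) + 1) * rep * (m' 0).toNat :=
            Nat.mul_le_mul_right _ (by rw [add_mul, one_mul]; have := hk r hr; omega)
        _ ≤ _ := (Nat.mul_le_mul_right _ (Nat.mul_le_mul_right _ (hidx _ _))).trans (hrep ⟨m', hm'⟩ _)
    have en := ((hmod r hr0 i s).symm.trans (e.of_dvd (Int.natCast_dvd_natCast.2
      (dvd_mul_of_dvd_right (Finset.dvd_prod_of_mem n hm') _)))).trans (hmod r' hr0' i' s')
    rw [Int.natCast_modEq_iff] at en
    have ea := (Nat.mod_eq_of_lt (hbound r hr0 s hs)).symm.trans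
      (Eq.trans en (Nat.mod_eq_of_lt (hbound r' hr0' s' hs')))
    have hw : 0 < (m' 0).toNat := (Nat.zero_le _).trans_lt hs
    have e1 : idx ⟨m', hm'⟩ (x r hr0) * rep + k r hr0 = idx ⟨m', hm'⟩ (x r' hr0') * rep + k r' hr0' := by
      have := congrArg (· / (m' 0).toNat) ea
      simpa [Nat.add_mul_div_right, mul_comm _ (m' 0).toNat, Nat.mul_add_div hw, Nat.div_eq_of_lt hs,
        Nat.div_eq_of_lt hs'] using this
    obtain rfl : s = s' := by rw [e1] at ea; omega
    have e2 := congrArg (· / rep) e1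
    have hrep0 : 0 < rep := (Nat.zero_le _).trans_lt (hk r hr0)
    simp only [mul_comm _ rep, Nat.mul_add_div hrep0, Nat.div_eq_of_lt (hk r hr0),
      Nat.div_eq_of_lt (hk r' hr0'), add_zero] at e2
    have ex := hinj _ _ _ (add_right_cancel eQ) e2
    have ek : k r hr0 = k r' hr0' := by rw [ex] at e1; omega
    obtain rfl : r = r' := by rw [hr r hr0, hr r' hr0', ek, ex]
    refine ⟨rfl, rfl, ?_, rfl⟩
    have e3 : (n m' : ℤ) * ((2 * P * L : ℕ) : ℤ) * i ≡ (n m' : ℤ) * ((2 * P * L : ℕ) : ℤ) * i' [ZMOD (n m' : ℤ) * ((2 * P * L : ℕ) : ℤ) * ((qOf S n / n m' : ℕ) : ℤ)] := by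
      have hq : (((2 * P * L) * qOf S n : ℕ) : ℤ) = (n m' : ℤ) * ((2 * P * L : ℕ) : ℤ) * ((qOf S n / n m' : ℕ) : ℤ) := by
        obtain ⟨K, hK⟩ : n m' ∣ qOf S n := Finset.dvd_prod_of_mem n hm'
        rw [hK, Nat.mul_div_cancel_left _ (hn m' hm').1]
        push_cast
        ring
      rw [← hq]
      have e4 := Int.ModEq.add_right_cancel' _ (Int.ModEq.add_right_cancel' _ e)
      simpa [mul_assoc, mul_comm, mul_left_comm] using e4
    have e5 := Int.ModEq.mul_left_cancel'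
      (mul_ne_zero (Nat.cast_ne_zero.2 (hn m' hm').1.ne') (Nat.cast_ne_zero.2 hQ.ne')) e3
    exact (Int.natCast_modEq_iff.1 e5).eq_of_lt_of_lt hi hi'
  · have eQ := hdvd e
    rw [Int.cast_sub (-1), Int.cast_neg, Int.cast_one, hcast r hr0 ⟨m, hm⟩, hcast r' hr0' ⟨m', hm'⟩] at eQ
    have ec := hcol r hr0 ⟨m, hm⟩ s hs
    rw [eQ, col_mirror, hcol r' hr0' ⟨m', hm'⟩ s' hs'] at ec
    simp at ec

end Vale.Agent.P110.Ultraflat.Pack
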