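import Mathlib

/-!
P110, ultraflat construction, packing: few residue vectors meet two linear conditions modulo `Q`.
-/

namespace Vale.Agent.P110.Ultraflat.Pack

open Finset

variable {d Q : ℕ} [NeZero Q]

/-- The linear form of an integer vector on residue vectors. -/
def lin (w : Fin d → ℤ) (g : Fin d → ZMod Q) : ZMod Q := ∑ c, (w c : ZMod Q) * g c

omit [NeZero Q] in
theorem lin_add (w w' : Fin d → ℤ) (g : Fin d → ZMod Q) :
    lin (fun c => w c + w' c) g = lin w g + lin w' g := by
  simp only [lin, Int.cast_add, add_mul, Finset.sum_add_distrib]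

omit [NeZero Q] in
theorem lin_sub (w w' : Fin d → ℤ) (g : Fin d → ZMod Q) :
    lin (fun c => w c - w' c) g = lin w g - lin w' g := by
  simp only [lin, Int.cast_sub, sub_mul, Finset.sum_sub_distrib]

/-- A residue has at most `D` preimages under multiplication by `D`. -/
theorem card_mul_eq_le (D : ℤ) (hD : D ≠ 0) (y : ZMod Q) :
    #{x : ZMod Q | (D : ZMod Q) * x = y} ≤ D.natAbs := by
  have hQ : 0 < Q := Nat.pos_of_ne_zero (NeZero.ne Q)
  calc _ ≤ #(Finset.range D.natAbs) := by
        refine Finset.card_le_card_of_injOn (fun x => D.natAbs * x.val / Q) (fun x _ => ?_) ?_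
        · rw [Finset.coe_range, Set.mem_Iio, Nat.div_lt_iff_lt_mul hQ]
          exact Nat.mul_lt_mul_of_pos_left (ZMod.val_lt x) (Int.natAbs_pos.2 hD)
        · intro a ha b hb h
          simp only [Finset.coe_filter, Finset.mem_univ, true_and, Set.mem_ofPred_eq] at ha hb
          have e : (D.natAbs : ZMod Q) * a = (D.natAbs : ZMod Q) * b := by
            rcases Int.natAbs_eq D with e | e
            · rw [e, Int.cast_natCast] at ha hb
              rw [ha, hb]
            · rw [e, Int.cast_neg, Int.cast_natCast, neg_mul] at ha hb
              exact neg_injective (ha.trans hb.symm)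
          have e1 : D.natAbs * a.val % Q = D.natAbs * b.val % Q := by
            rw [← ZMod.val_natCast, ← ZMod.val_natCast, Nat.cast_mul, Nat.cast_mul,
              ZMod.natCast_zmod_val, ZMod.natCast_zmod_val, e]
          have e2 : D.natAbs * a.val = D.natAbs * b.val := by
            rw [← Nat.div_add_mod (D.natAbs * a.val) Q, ← Nat.div_add_mod (D.natAbs * b.val) Q, e1]
            simp only at h
            rw [h]
          exact ZMod.val_injective Q (Nat.eq_of_mul_eq_mul_left (Int.natAbs_pos.2 hD) e2)
    _ = D.natAbs := Finset.card_range _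

theorem card_mul_mem_le (D : ℤ) (hD : D ≠ 0) (X : Finset (ZMod Q)) :
    #{x : ZMod Q | (D : ZMod Q) * x ∈ X} ≤ D.natAbs * #X := by
  refine Finset.card_le_mul_card_image_of_maps_to (f := fun x => (D : ZMod Q) * x)
    (fun x hx => (Finset.mem_filter.1 hx).2) _ fun y _ => ?_
  refine le_trans (Finset.card_le_card fun x hx => ?_) (card_mul_eq_le D hD y)
  simp only [Finset.mem_filter] at hx ⊢
  exact ⟨Finset.mem_univ _, hx.2⟩

/-- Few vectors meet one condition. -/
theorem card_lin_le (w : Fin d → ℤ) (b : Fin d) (hb : w b ≠ 0) (X : Finset (ZMod Q)) :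
    #{g : Fin d → ZMod Q | lin w g ∈ X} ≤ (w b).natAbs * #X * Q ^ (d - 1) := by
  classical
  let res : (Fin d → ZMod Q) → ({c : Fin d // c ≠ b} → ZMod Q) := fun g c => g c
  refine (Finset.card_le_mul_card_image (f := res) _ ((w b).natAbs * #X) fun r _ => ?_).trans
    (Nat.mul_le_mul_left _ ((Finset.card_le_univ _).trans ?_))
  · let rest : ZMod Q := ∑ c : {c : Fin d // c ≠ b}, (w c : ZMod Q) * r c
    have hlin : ∀ g, res g = r → lin w g = (w b : ZMod Q) * g b + rest := fun g hg => by
      rw [lin, Fintype.sum_eq_add_sum_subtype_ne _ b]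
      simp only [rest, ← hg, res]
    calc _ ≤ #{x : ZMod Q | (w b : ZMod Q) * x ∈ X.image fun y => y - rest} := by
          refine Finset.card_le_card_of_injOn (fun g => g b) (fun g hg => ?_) ?_
          · simp only [Finset.coe_filter, Finset.mem_filter, Finset.mem_univ, true_and,
              Set.mem_ofPred_eq] at hg ⊢
            exact Finset.mem_image.2 ⟨_, hg.1, by rw [hlin g hg.2]; ring⟩
          · intro g hg g' hg' h
            simp only [Finset.coe_filter, Finset.mem_filter, Set.mem_ofPred_eq] at hg hg'
            funext c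
            by_cases hc : c = b
            · rw [hc]; exact h
            · exact congrFun (hg.2.trans hg'.2.symm) ⟨c, hc⟩
      _ ≤ _ := (card_mul_mem_le _ hb _).trans (Nat.mul_le_mul_left _ Finset.card_image_le)
  · simp [Fintype.card_subtype_compl]

variable (v : Fin d → ℤ) (z : Fin d) (hv : IsUnit (v z : ZMod Q))

include hv in
/-- With a unit coordinate a fibre has at most `Q ^ (d - 1)` points. -/
theorem card_fibre_le (r : ZMod Q) : #{g : Fin d → ZMod Q | lin v g = r} ≤ Q ^ (d - 1) := by
  classical
  let res : (Fin d → ZMod Q) → ({c : Fin d // c ≠ z} → ZMod Q) := fun g c => g c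
  calc _ ≤ #(Finset.univ : Finset ({c : Fin d // c ≠ z} → ZMod Q)) := by
        refine Finset.card_le_card_of_injOn res (fun g _ => Finset.mem_univ _) ?_
        intro g hg g' hg' h
        simp only [Finset.coe_filter, Finset.mem_univ, true_and, Set.mem_ofPred_eq] at hg hg'
        funext c
        by_cases hc : c = z
        · rw [hc]
          have e := hg.trans hg'.symm
          rw [lin, lin, Fintype.sum_eq_add_sum_subtype_ne _ z, Fintype.sum_eq_add_sum_subtype_ne _ z,
            show ∑ i : {i : Fin d // i ≠ z}, (v i : ZMod Q) * g i =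
              ∑ i : {i : Fin d // i ≠ z}, (v i : ZMod Q) * g' i from
              Finset.sum_congr rfl fun i _ => congrArg _ (congrFun h i)] at e
          exact hv.mul_left_cancel (add_right_cancel e)
        · exact congrFun h ⟨c, hc⟩
    _ = _ := by simp [Fintype.card_subtype_compl]

include hv in
/-- Few vectors of a fibre meet a second condition. -/
theorem card_lin2_le (w : Fin d → ℤ) (b : Fin d) (hD : v z * w b - w z * v b ≠ 0) (r : ZMod Q)
    (X : Finset (ZMod Q)) :
    #{g : Fin d → ZMod Q | lin v g = r ∧ lin w g ∈ X} ≤
      (v z * w b - w z * v b).natAbs * #X * Q ^ (d - 2) := by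
  classical
  have hbz : b ≠ z := fun h => hD (by rw [h]; ring)
  let res : (Fin d → ZMod Q) → ({c : Fin d // c ≠ z ∧ c ≠ b} → ZMod Q) := fun g c => g c
  refine (Finset.card_le_mul_card_image (f := res) _ ((v z * w b - w z * v b).natAbs * #X)
    fun s _ => ?_).trans (Nat.mul_le_mul_left _ ((Finset.card_le_univ _).trans ?_))
  · let D : Fin d → ZMod Q := fun c => (v z : ZMod Q) * w c - (w z : ZMod Q) * v c
    let s' : Fin d → ZMod Q := fun c => if h : c ≠ z ∧ c ≠ b then s ⟨c, h⟩ else 0
    let rest : ZMod Q := ∑ c, D c * s' c
    have hlin : ∀ g, res g = s →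
        (v z : ZMod Q) * lin w g - (w z : ZMod Q) * lin v g = D b * g b + rest := fun g hg => by
      have e : (v z : ZMod Q) * lin w g - (w z : ZMod Q) * lin v g = ∑ c, D c * g c := by
        simp only [lin, Finset.mul_sum, ← Finset.sum_sub_distrib, D]
        exact Finset.sum_congr rfl fun c _ => by ring
      rw [e]
      have hpt : ∀ c, D c * g c = (if c = b then D b * g b else 0) + D c * s' c := fun c => by
        by_cases hb : c = b
        · subst hb; simp [s']
        · by_cases hz : c = z
          · subst hz; simp [s', hb, D, mul_comm]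
          · simp [s', hb, hz, ← hg, res]
      rw [Finset.sum_congr rfl fun c _ => hpt c, Finset.sum_add_distrib, Finset.sum_ite_eq' _ b]
      simp [rest]
    calc _ ≤ #{x : ZMod Q | ((v z * w b - w z * v b : ℤ) : ZMod Q) * x ∈
          X.image fun y => (v z : ZMod Q) * y - (w z : ZMod Q) * r - rest} := by
          refine Finset.card_le_card_of_injOn (fun g => g b) (fun g hg => ?_) ?_
          · simp only [Finset.coe_filter, Finset.mem_filter, Finset.mem_univ, true_and,
              Set.mem_ofPred_eq] at hg ⊢
            refine Finset.mem_image.2 ⟨_, hg.1.2, ?_⟩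
            have h := hlin g hg.2
            rw [hg.1.1] at h
            rw [h, add_sub_cancel_right]
            simp [D]
          · intro g hg g' hg' h
            simp only [Finset.coe_filter, Finset.mem_filter, Finset.mem_univ, true_and,
              Set.mem_ofPred_eq] at hg hg'
            have hne : ∀ c, c ≠ z → g c = g' c := fun c hc => by
              by_cases hb : c = b
              · rw [hb]; exact h
              · exact congrFun (hg.2.trans hg'.2.symm) ⟨c, hc, hb⟩
            funext c
            by_cases hc : c = z
            · rw [hc]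
              have e := hg.1.1.trans hg'.1.1.symm
              rw [lin, lin, Fintype.sum_eq_add_sum_subtype_ne _ z,
                Fintype.sum_eq_add_sum_subtype_ne _ z,
                show ∑ i : {i : Fin d // i ≠ z}, (v i : ZMod Q) * g i =
                  ∑ i : {i : Fin d // i ≠ z}, (v i : ZMod Q) * g' i from
                  Finset.sum_congr rfl fun i _ => congrArg _ (hne i i.2)] at e
              exact hv.mul_left_cancel (add_right_cancel e)
            · exact hne c hc
      _ ≤ _ := (card_mul_mem_le _ hD _).trans (Nat.mul_le_mul_left _ Finset.card_image_le)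
  · have hc : Fintype.card {c : Fin d // c ≠ z ∧ c ≠ b} = d - 2 := by
      rw [Fintype.card_subtype, show ({c : Fin d | c ≠ z ∧ c ≠ b} : Finset (Fin d)) =
        ({z, b} : Finset (Fin d))ᶜ by ext c; simp, Finset.card_compl, Fintype.card_fin,
        Finset.card_pair hbz.symm]
    simp [hc]

end Vale.Agent.P110.Ultraflat.Pack
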